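import Vale.Agent.P352.H990.Conv

/-! Truncated functionals: invariance and families. -/

namespace Vale.Agent.P352.H722

open H990 (Fu sh conv cv)

variable {X : Type*}

/-- the part of the convolution with nonempty second word -/
def cp : List X → Fu X → Fu X → ℂ
  | [], _, _ => 0
  | f :: w, φ, ψ => cp w (sh f φ) ψ + conv w φ (sh f ψ)

lemma conv_eq (w : List X) (φ ψ : Fu X) : conv w φ ψ = φ w * ψ [] + cp w φ ψ := by
  induction w generalizing φ ψ with
  | nil => simp [conv, cp]
  | cons f w ih =>
    have h := ih (sh f φ) ψ
    have e : sh f φ w = φ (f :: w) := rfl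
    simp only [conv, cp]
    rw [h, e]
    ring

lemma conv_map {g : X → X} {c : ℂ} (w : List X) (φ φ' ψ ψ' : Fu X) (a b : ℂ)
    (h : ∀ u : List X, u.length ≤ w.length → φ' (u.map g) = a * c ^ u.length * φ u)
    (k : ∀ u : List X, u.length ≤ w.length → ψ' (u.map g) = b * c ^ u.length * ψ u) :
    conv (w.map g) φ' ψ' = a * b * c ^ w.length * conv w φ ψ := by
  induction w generalizing φ φ' ψ ψ' a b with
  | nil =>
    have h1 := h [] (le_refl _)
    have k1 := k [] (le_refl _)
    simp only [List.map_nil, List.length_nil, pow_zero, mul_one] at h1 k1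
    simp only [List.map_nil, conv, h1, k1, List.length_nil, pow_zero, mul_one]
    ring
  | cons f w ih =>
    have i1 := ih (sh f φ) (sh (g f) φ') ψ ψ' (a * c) b (fun u hu => by
        have := h (f :: u) (by simpa using hu)
        simp only [List.map_cons, List.length_cons, pow_succ] at this
        simp only [sh, this]
        ring) (fun u hu => k u (by simp only [List.length_cons]; omega))
    have i2 := ih φ φ' (sh f ψ) (sh (g f) ψ') a (b * c) (fun u hu => h u (by
        simp only [List.length_cons]; omega)) (fun u hu => by
        have := k (f :: u) (by simpa using hu)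
        simp only [List.map_cons, List.length_cons, pow_succ] at this
        simp only [sh, this]
        ring)
    simp only [List.map_cons, conv, List.length_cons, pow_succ]
    rw [i1, i2]
    ring

lemma cp_map {g : X → X} {c : ℂ} (w : List X) (φ φ' ψ ψ' : Fu X) (a b : ℂ)
    (h : ∀ u : List X, u.length < w.length → φ' (u.map g) = a * c ^ u.length * φ u)
    (k : ∀ u : List X, u.length ≤ w.length → ψ' (u.map g) = b * c ^ u.length * ψ u) :
    cp (w.map g) φ' ψ' = a * b * c ^ w.length * cp w φ ψ := by
  induction w generalizing φ φ' ψ ψ' a b with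
  | nil => simp [cp]
  | cons f w ih =>
    have i1 := ih (sh f φ) (sh (g f) φ') ψ ψ' (a * c) b (fun u hu => by
        have := h (f :: u) (by simpa using hu)
        simp only [List.map_cons, List.length_cons, pow_succ] at this
        simp only [sh, this]
        ring) (fun u hu => k u (by simp only [List.length_cons]; omega))
    have i2 := conv_map w φ φ' (sh f ψ) (sh (g f) ψ') a (b * c) (fun u hu => h u (by
        simp only [List.length_cons]; omega)) (fun u hu => by
        have := k (f :: u) (by simpa using hu)
        simp only [List.map_cons, List.length_cons, pow_succ] at this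
        simp only [sh, this]
        ring)
    simp only [List.map_cons, cp, List.length_cons, pow_succ]
    rw [i1, i2]
    ring

section fam

variable {B : Type*} {P : (B → ℂ) → Prop} (hadd : ∀ F G, P F → P G → P fun b => F b + G b)
  (hmul : ∀ F G, P F → P G → P fun b => F b * G b) (hconst : ∀ c : ℂ, P fun _ => c)
  (g : B → X → X)

include hadd hmul

lemma conv_fam (w : List X) (Φ Ψ : B → Fu X)
    (h : ∀ u : List X, u.length ≤ w.length → P fun b => Φ b (u.map (g b)))
    (k : ∀ u : List X, u.length ≤ w.length → P fun b => Ψ b (u.map (g b))) :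
    P fun b => conv (w.map (g b)) (Φ b) (Ψ b) := by
  induction w generalizing Φ Ψ with
  | nil => exact hmul _ _ (h [] (le_refl _)) (k [] (le_refl _))
  | cons f w ih =>
    exact hadd _ _ (ih (fun b => sh (g b f) (Φ b)) Ψ (fun u hu => h (f :: u) (by simpa using hu))
        (fun u hu => k u (by simp only [List.length_cons]; omega)))
      (ih Φ (fun b => sh (g b f) (Ψ b)) (fun u hu => h u (by simp only [List.length_cons]; omega))
        (fun u hu => k (f :: u) (by simpa using hu)))

lemma conv_fam2 (w₁ w₂ : List X) (φ ψ : Fu X)
    (h : ∀ u₁ u₂ : List X, u₁.length + u₂.length ≤ w₁.length + w₂.length →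
      P fun b => φ (u₁ ++ u₂.map (g b)))
    (k : ∀ u₁ u₂ : List X, u₁.length + u₂.length ≤ w₁.length + w₂.length →
      P fun b => ψ (u₁ ++ u₂.map (g b))) :
    P fun b => conv (w₁ ++ w₂.map (g b)) φ ψ := by
  induction w₁ generalizing φ ψ with
  | nil =>
    exact conv_fam hadd hmul g w₂ (fun _ => φ) (fun _ => ψ)
      (fun u hu => h [] u (by simpa using hu)) (fun u hu => k [] u (by simpa using hu))
  | cons f w ih =>
    exact hadd _ _ (ih (sh f φ) ψ (fun u v hu => h (f :: u) v (by
        simp only [List.length_cons]; omega))
        (fun u v hu => k u v (by simp only [List.length_cons]; omega)))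
      (ih φ (sh f ψ) (fun u v hu => h u v (by simp only [List.length_cons]; omega))
        (fun u v hu => k (f :: u) v (by simp only [List.length_cons]; omega)))

include hconst

lemma cp_fam (w : List X) (Φ Ψ : B → Fu X)
    (h : ∀ u : List X, u.length < w.length → P fun b => Φ b (u.map (g b)))
    (k : ∀ u : List X, u.length ≤ w.length → P fun b => Ψ b (u.map (g b))) :
    P fun b => cp (w.map (g b)) (Φ b) (Ψ b) := by
  induction w generalizing Φ Ψ with
  | nil => exact hconst 0
  | cons f w ih =>
    exact hadd _ _ (ih (fun b => sh (g b f) (Φ b)) Ψ (fun u hu => h (f :: u) (by simpa using hu))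
        (fun u hu => k u (by simp only [List.length_cons]; omega)))
      (conv_fam hadd hmul g w Φ (fun b => sh (g b f) (Ψ b)) (fun u hu => h u (by
        simp only [List.length_cons]; omega))
        (fun u hu => k (f :: u) (by simpa using hu)))

lemma cp_fam2 (w₁ w₂ : List X) (φ ψ : Fu X)
    (h : ∀ u₁ u₂ : List X, u₁.length + u₂.length < w₁.length + w₂.length →
      P fun b => φ (u₁ ++ u₂.map (g b)))
    (k : ∀ u₁ u₂ : List X, u₁.length + u₂.length ≤ w₁.length + w₂.length →
      P fun b => ψ (u₁ ++ u₂.map (g b))) :
    P fun b => cp (w₁ ++ w₂.map (g b)) φ ψ := by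
  induction w₁ generalizing φ ψ with
  | nil =>
    exact cp_fam hadd hmul hconst g w₂ (fun _ => φ) (fun _ => ψ)
      (fun u hu => h [] u (by simpa using hu)) (fun u hu => k [] u (by simpa using hu))
  | cons f w ih =>
    exact hadd _ _ (ih (sh f φ) ψ (fun u v hu => h (f :: u) v (by
        simp only [List.length_cons]; omega))
        (fun u v hu => k u v (by simp only [List.length_cons]; omega)))
      (conv_fam2 hadd hmul g w w₂ φ (sh f ψ) (fun u v hu => h u v (by
        simp only [List.length_cons]; omega))
        (fun u v hu => k (f :: u) v (by simp only [List.length_cons]; omega)))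

lemma tau_fam {ω τ : Fu X} (hexp : ∀ f, sh f ω = cv (sh f τ) ω) (h1 : ω [] = 1)
    (hω : ∀ w₁ w₂ : List X, P fun b => ω (w₁ ++ w₂.map (g b)))
    (h0 : ∀ w : List X, P fun b => τ (w.map (g b))) (n : ℕ) :
    ∀ w₁ w₂ : List X, w₁.length + w₂.length = n → P fun b => τ (w₁ ++ w₂.map (g b)) := by
  induction n using Nat.strong_induction_on with
  | _ n ih =>
    intro w₁ w₂ hn
    cases w₁ with
    | nil => exact h0 w₂
    | cons f w =>
      have e : (fun b => τ (f :: w ++ w₂.map (g b))) = fun b => ω (f :: w ++ w₂.map (g b)) +
          (-1) * cp (w ++ w₂.map (g b)) (sh f τ) ω := by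
        funext b
        have h2 := congrFun (hexp f) (w ++ w₂.map (g b))
        simp only [cv, conv_eq, h1, mul_one] at h2
        simp only [sh] at h2 ⊢
        rw [List.cons_append, h2]
        ring
      rw [e]
      refine hadd _ _ (hω _ _) (hmul _ _ (hconst _) ?_)
      refine cp_fam2 hadd hmul hconst g w w₂ _ _ (fun u v hu => ?_) (fun u v _ => hω u v)
      simp only [List.length_cons] at hn
      exact ih (u.length + 1 + v.length) (by omega) (f :: u) v (by simp)

end fam

lemma tau_map {ω τ : Fu X} (hexp : ∀ f, sh f ω = cv (sh f τ) ω) (h1 : ω [] = 1) {g : X → X} {c : ℂ}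
    (hω : ∀ w : List X, ω (w.map g) = c ^ w.length * ω w) (n : ℕ) :
    ∀ w : List X, w.length = n + 1 → τ (w.map g) = c ^ (n + 1) * τ w := by
  induction n using Nat.strong_induction_on with
  | _ n ih =>
    intro w hw
    cases w with
    | nil => simp at hw
    | cons f w =>
      have e : ∀ (f : X) (w : List X), τ (f :: w) = ω (f :: w) - cp w (sh f τ) ω := by
        intro f w
        have h2 := congrFun (hexp f) w
        simp only [cv, conv_eq, h1, mul_one] at h2
        simp only [sh] at h2 ⊢
        rw [h2]
        ring
      have hw' : w.length = n := by simpa using hw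
      have k := cp_map (g := g) (c := c) w (sh f τ) (sh (g f) τ) ω ω c 1 (fun u hu => by
          have := ih u.length (by omega) (f :: u) (by simp)
          simp only [List.map_cons] at this
          simp only [sh, this, pow_succ]
          ring) (fun u _ => by rw [hω, one_mul])
      have h3 := hω (f :: w)
      simp only [List.map_cons, List.length_cons, hw'] at h3 ⊢
      rw [e, e, h3, k, hw']
      ring

end Vale.Agent.P352.H722
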