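import Vale.Agent.P352.H990.Four
import Vale.Agent.P352.H722.Alg

/-! Boundary values of analytic functions along all future directed lines. -/

set_option maxSynthPendingDepth 3

open MeasureTheory SchwartzMap Complex Filter Topology
open scoped SchwartzMap ComplexConjugate ENNReal LineDeriv

namespace Vale.Agent.P352.H722

open GF (Ix V Fn Sch ev pd bar sim one bas o)
open H990

/-- boundary values of bounded analytic functions along future directed lines -/
def Ana (h : Mink → ℂ) : Prop := ∀ a v : Mink, (∀ p ∈ fwdCone, 0 ≤ mdot p v) →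
  ∃ G : ℂ → ℂ, ContinuousOn G {z | 0 ≤ z.im} ∧ DifferentiableOn ℂ G {z | 0 < z.im} ∧
    (∃ M, ∀ z : ℂ, 0 ≤ z.im → ‖G z‖ ≤ M) ∧ ∀ r : ℝ, G r = h (a + r • v)

lemma Ana.add (F G : Mink → ℂ) (hF : Ana F) (hG : Ana G) : Ana fun b => F b + G b := by
  intro a v hv
  obtain ⟨F', f1, f2, ⟨M, f3⟩, f4⟩ := hF a v hv
  obtain ⟨G', g1, g2, ⟨N, g3⟩, g4⟩ := hG a v hv
  exact ⟨fun z => F' z + G' z, f1.add g1, f2.add g2, ⟨M + N, fun z hz =>
    (norm_add_le _ _).trans (add_le_add (f3 z hz) (g3 z hz))⟩, fun r => by simp only [f4, g4]⟩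

lemma Ana.mul (F G : Mink → ℂ) (hF : Ana F) (hG : Ana G) : Ana fun b => F b * G b := by
  intro a v hv
  obtain ⟨F', f1, f2, ⟨M, f3⟩, f4⟩ := hF a v hv
  obtain ⟨G', g1, g2, ⟨N, g3⟩, g4⟩ := hG a v hv
  exact ⟨fun z => F' z * G' z, f1.mul g1, f2.mul g2, ⟨M * N, fun z hz => by
    rw [norm_mul]
    exact mul_le_mul (f3 z hz) (g3 z hz) (norm_nonneg _) ((norm_nonneg _).trans (f3 z hz))⟩,
    fun r => by simp only [f4, g4]⟩

lemma Ana.const (c : ℂ) : Ana fun _ => c := fun _ _ _ =>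
  ⟨fun _ => c, continuousOn_const, differentiableOn_const _, ⟨‖c‖, fun _ _ => le_refl _⟩,
    fun _ => rfl⟩

lemma ana_cint {μ : Measure Mink} (hμ : ∀ᵐ p ∂μ, p ∈ fwdCone) {ψ : Mink → ℂ}
    (hψ : Integrable ψ μ) : Ana (cint μ ψ) := by
  intro a v hv
  set G : ℂ → ℂ := fun z => ∫ p, exp (I * z * (mdot p v : ℂ)) * (chr a p * ψ p) ∂μ with hG
  have hψa := integrable_chr_mul hψ a
  have hGr : ∀ r : ℝ, G r = cint μ ψ (a + r • v) := by
    intro r
    simp only [hG, cint]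
    congr 1
    ext p
    rw [← mul_assoc]
    congr 1
    rw [chr, chr, ← exp_add, mdot_add_right, mdot_smul_right]
    congr 1
    push_cast
    ring
  have hmeas : ∀ z : ℂ, AEStronglyMeasurable
      (fun p => exp (I * z * (mdot p v : ℂ)) * (chr a p * ψ p)) μ := by
    intro z
    refine AEStronglyMeasurable.mul ?_ hψa.aestronglyMeasurable
    exact (continuous_exp.comp (continuous_const.mul
      (continuous_ofReal.comp (continuous_mdot_left v)))).aestronglyMeasurable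
  have hbd : ∀ᵐ p ∂μ, ∀ z : ℂ, 0 ≤ z.im →
      ‖exp (I * z * (mdot p v : ℂ)) * (chr a p * ψ p)‖ ≤ ‖chr a p * ψ p‖ := by
    filter_upwards [hμ] with p hp z hz
    rw [norm_mul, norm_exp]
    have h1 : (I * z * (mdot p v : ℂ)).re ≤ 0 := by
      simp only [mul_re, I_re, I_im, ofReal_re, ofReal_im, mul_im]
      nlinarith only [mul_nonneg hz (hv p hp)]
    calc _ ≤ 1 * ‖chr a p * ψ p‖ := by gcongr; exact Real.exp_le_one_iff.2 h1
      _ = _ := one_mul _
  refine ⟨G, ?_, ?_, ?_, hGr⟩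
  · intro z₀ _
    apply continuousWithinAt_of_dominated (bound := fun p => ‖chr a p * ψ p‖)
    · exact Eventually.of_forall hmeas
    · filter_upwards [self_mem_nhdsWithin] with z hz
      filter_upwards [hbd] with p hp using hp z hz
    · exact hψa.norm
    · refine Eventually.of_forall fun p => Continuous.continuousWithinAt ?_
      fun_prop
  · intro z₀ hz₀
    apply DifferentiableAt.differentiableWithinAt
    refine differentiableAt_integral (U := {z : ℂ | 0 < z.im})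
      (isOpen_lt continuous_const continuous_im)
      (F := fun z p => exp (I * z * (mdot p v : ℂ)) * (chr a p * ψ p))
      (bound := fun p => ‖chr a p * ψ p‖) ?_ ?_ ?_ hψa.norm hz₀
    · exact fun z _ => hmeas z
    · refine Eventually.of_forall fun p => ?_
      apply Differentiable.differentiableOn
      fun_prop
    · filter_upwards [hbd] with p hp z hz
      exact hp z (le_of_lt hz)
  · refine ⟨∫ p, ‖chr a p * ψ p‖ ∂μ, fun z hz => ?_⟩
    refine norm_integral_le_of_norm_le hψa.norm ?_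
    filter_upwards [hbd] with p hp using hp z hz

lemma Ana.line {h : Mink → ℂ} (hh : Ana h) (a v : Mink) (hv : ∀ p ∈ fwdCone, 0 ≤ mdot p v)
    {s t : ℝ} (hst : s < t) (hz : ∀ r, s < r → r < t → h (a + r • v) = 0) (r : ℝ) :
    h (a + r • v) = 0 := by
  obtain ⟨G, g1, g2, g3, g4⟩ := hh a v hv
  rw [← g4]
  exact halfplane_unique G g1 g2 g3 s t hst (fun r h1 h2 => by rw [g4]; exact hz r h1 h2) _
    (by simp)

lemma fwd_large (w : Mink) (p : Mink) (hp : p ∈ fwdCone) :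
    0 ≤ mdot p (w + (|w 0| + |w 1| + |w 2| + |w 3|) • eb 0) := by
  obtain ⟨h0, h1⟩ := hp
  simp only [mdot] at h1
  have a1 : |p 1| ≤ p 0 := abs_le_of_sq_le_sq (by nlinarith [sq_nonneg (p 2), sq_nonneg (p 3)]) h0
  have a2 : |p 2| ≤ p 0 := abs_le_of_sq_le_sq (by nlinarith [sq_nonneg (p 1), sq_nonneg (p 3)]) h0
  have a3 : |p 3| ≤ p 0 := abs_le_of_sq_le_sq (by nlinarith [sq_nonneg (p 1), sq_nonneg (p 2)]) h0
  have b1 : p 1 * w 1 ≤ p 0 * |w 1| := by
    refine (le_abs_self _).trans ?_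
    rw [abs_mul]
    exact mul_le_mul_of_nonneg_right a1 (abs_nonneg _)
  have b2 : p 2 * w 2 ≤ p 0 * |w 2| := by
    refine (le_abs_self _).trans ?_
    rw [abs_mul]
    exact mul_le_mul_of_nonneg_right a2 (abs_nonneg _)
  have b3 : p 3 * w 3 ≤ p 0 * |w 3| := by
    refine (le_abs_self _).trans ?_
    rw [abs_mul]
    exact mul_le_mul_of_nonneg_right a3 (abs_nonneg _)
  have b0 : 0 ≤ p 0 * (w 0 + |w 0|) := mul_nonneg h0 (by linarith [neg_abs_le (w 0)])
  have e : mdot p (w + (|w 0| + |w 1| + |w 2| + |w 3|) • eb 0) =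
      p 0 * (w 0 + (|w 0| + |w 1| + |w 2| + |w 3|)) - p 1 * w 1 - p 2 * w 2 - p 3 * w 3 := by
    simp [mdot, eb]
  rw [e]
  linarith

lemma fwd_eb (p : Mink) (hp : p ∈ fwdCone) : 0 ≤ mdot p (eb 0) := by
  have e : mdot p (eb 0) = p 0 := by simp [mdot, eb]
  rw [e]
  exact hp.1

/-- uniqueness -/
lemma Ana.zero {h : Mink → ℂ} (hh : Ana h) {b₀ : Mink} (h0 : ∀ᶠ b in 𝓝 b₀, h b = 0) (b : Mink) :
    h b = 0 := by
  obtain ⟨ε, hε, hball⟩ := Metric.eventually_nhds_iff_ball.1 h0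
  have line : ∀ a ∈ Metric.ball b₀ ε, ∀ v : Mink, ∃ δ > 0, ∀ r : ℝ, -δ < r → r < δ →
      a + r • v ∈ Metric.ball b₀ ε := by
    intro a ha v
    have hc : Continuous fun r : ℝ => a + r • v := by fun_prop
    have h1 := (Metric.isOpen_ball (x := b₀) (ε := ε)).preimage hc
    obtain ⟨δ, hδ, h2⟩ := Metric.isOpen_iff.1 h1 0 (by simpa using ha)
    refine ⟨δ, hδ, fun r h3 h4 => h2 ?_⟩
    rw [Metric.mem_ball, dist_zero_right, Real.norm_eq_abs, abs_lt]
    exact ⟨h3, h4⟩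
  have step1 : ∀ a ∈ Metric.ball b₀ ε, ∀ v : Mink, (∀ p ∈ fwdCone, 0 ≤ mdot p v) →
      ∀ r : ℝ, h (a + r • v) = 0 := by
    intro a ha v hv r
    obtain ⟨δ, hδ, h1⟩ := line a ha v
    exact hh.line a v hv (s := -δ) (t := δ) (by linarith) (fun r h3 h4 => hball _ (h1 r h3 h4)) r
  set T : ℝ := |(b - b₀) 0| + |(b - b₀) 1| + |(b - b₀) 2| + |(b - b₀) 3| with hT
  set v : Mink := (b - b₀) + T • eb 0 with hv
  have hv' : ∀ p ∈ fwdCone, 0 ≤ mdot p v := fun p hp => fwd_large (b - b₀) p hp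
  obtain ⟨δ, hδ, h1⟩ := line b₀ (Metric.mem_ball_self hε) (eb 0)
  have h2 := hh.line (b₀ + v) (eb 0) fwd_eb (s := -δ) (t := δ) (by linarith) (fun r h3 h4 => by
    have h5 := step1 _ (h1 r h3 h4) v hv' 1
    rw [one_smul] at h5
    rw [add_right_comm]
    exact h5) (-T)
  have e : b₀ + v + (-T) • eb 0 = b := by
    rw [hv, neg_smul]
    abel
  rwa [e] at h2

section words

variable {D : Type*} [NormedAddCommGroup D] [InnerProductSpace ℂ D] {Q : GF.Theory D}
  {T : Ix → Ix → GF.Fld D} {A : GF.Fld D} {d : ℝ}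

lemma ana_inner (Q : GF.Theory D) (x y : D) :
    Ana fun b => inner ℂ x (Q.U 1 one b.ofLp y) := by
  obtain ⟨μ, ψ, h1, h2, h3⟩ := spec_rep Q x y
  have h4 := ana_cint h1 h2
  have e : (fun b : Mink => (inner ℂ x (Q.U 1 one b.ofLp y) : ℂ)) = cint μ ψ := funext h3
  rw [e]
  exact h4

lemma word_tau (hA : PField Q T A d) (a : Mink) (w : List 𝓢(Mink, ℂ)) (v : D) :
    Q.U 1 one a.ofLp (w.foldr (fun f v => A (fl f) v) v) =
      (w.map (tauS a)).foldr (fun f v => A (fl f) v) (Q.U 1 one a.ofLp v) := by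
  induction w with
  | nil => rfl
  | cons f w ih =>
    simp only [List.foldr_cons, List.map_cons]
    rw [U_op hA, ih]

lemma word_left (hA : PField Q T A d) (w : List 𝓢(Mink, ℂ)) (x : D) :
    ∃ x' : D, ∀ y, (inner ℂ x (w.foldr (fun f v => A (fl f) v) y) : ℂ) = inner ℂ x' y := by
  induction w generalizing x with
  | nil => exact ⟨x, fun y => rfl⟩
  | cons f w ih =>
    obtain ⟨x', h⟩ := ih (A (fl (conjS f)) x)
    refine ⟨x', fun y => ?_⟩
    rw [← h, List.foldr_cons, herm' hA]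

lemma U_vac1 (a : V) : Q.U 1 one a Q.vac = Q.vac := Q.U_vac 1 one _ one_pos isLor_one

lemma ana_mel (hA : PField Q T A d) (w₁ w₂ : List 𝓢(Mink, ℂ)) :
    Ana fun b => mel A Q.vac Q.vac (w₁ ++ w₂.map (tauS b)) := by
  obtain ⟨x', h⟩ := word_left hA w₁ Q.vac
  have e : (fun b => mel A Q.vac Q.vac (w₁ ++ w₂.map (tauS b))) =
      fun b => inner ℂ x' (Q.U 1 one b.ofLp (w₂.foldr (fun f v => A (fl f) v) Q.vac)) := by
    funext b
    rw [word_tau hA, U_vac1, ← h]
    simp only [mel, List.foldr_append]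
  rw [e]
  exact ana_inner Q _ _

lemma mel_tau (hA : PField Q T A d) (a : Mink) (w : List 𝓢(Mink, ℂ)) :
    mel A Q.vac Q.vac (w.map (tauS a)) = mel A Q.vac Q.vac w := by
  have h := word_tau hA a w Q.vac
  rw [U_vac1] at h
  have h2 := Q.U_inner 1 one a.ofLp Q.vac (w.foldr (fun f v => A (fl f) v) Q.vac) one_pos isLor_one
  rw [U_vac1, h] at h2
  exact h2

lemma word_sim (hA : PField Q T A d) {s : ℝ} (hs : 0 < s) (a : V) (w : List 𝓢(Mink, ℂ)) (v : D) :
    w.foldr (fun f v => A (fl f) v) (Q.U s one a v) = (((s ^ (4 - d) : ℝ) : ℂ) ^ w.length) •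
      Q.U s one a ((w.map (simS s hs isLor_one a)).foldr (fun f v => A (fl f) v) v) := by
  induction w with
  | nil => simp
  | cons f w ih =>
    simp only [List.foldr_cons, List.map_cons, List.length_cons]
    rw [ih, hA.smulv, hA.cov s hs one isLor_one a f, smul_smul, pow_succ]

lemma mel_scale (hA : PField Q T A d) {s : ℝ} (hs : 0 < s) (w : List 𝓢(Mink, ℂ)) :
    mel A Q.vac Q.vac (w.map (scaleS s hs.ne')) =
      ((((s ^ (4 - d) : ℝ) : ℂ))⁻¹ ^ w.length) * mel A Q.vac Q.vac w := by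
  have h := word_sim hA hs 0 w Q.vac
  rw [Q.U_vac s one 0 hs isLor_one] at h
  have e : w.map (simS s hs isLor_one 0) = w.map (scaleS s hs.ne') :=
    List.map_congr_left fun f _ => simS_scale hs f
  rw [e] at h
  have h2 := Q.U_inner s one 0 Q.vac
    ((w.map (scaleS s hs.ne')).foldr (fun f v => A (fl f) v) Q.vac) hs isLor_one
  rw [Q.U_vac s one 0 hs isLor_one] at h2
  have hc : ((s ^ (4 - d) : ℝ) : ℂ) ≠ 0 := ofReal_ne_zero.2 (Real.rpow_pos_of_pos hs _).ne'
  simp only [mel]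
  rw [h, inner_smul_right, h2, ← mul_assoc, ← mul_pow, inv_mul_cancel₀ hc, one_pow, one_mul]

end words

/-- compact support, strictly inside the ball of radius `ε` about `x` -/
def Nr (ε : ℝ) (x : Mink) (f : 𝓢(Mink, ℂ)) : Prop :=
  HasCompactSupport f ∧ ∃ ρ < ε, ∀ y ∈ tsupport f, ‖y - x‖ ≤ ρ

lemma cp_tauS {f : 𝓢(Mink, ℂ)} (hf : HasCompactSupport f) (a : Mink) :
    HasCompactSupport (tauS a f) := by
  have h1 : (tauS a f : Mink → ℂ) = f ∘ (Homeomorph.subRight a) := by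
    ext x; simp only [tauS_apply, Homeomorph.coe_subRight, Function.comp_apply]
  rw [h1]
  exact hf.comp_homeomorph _

lemma Nr.tau {ε : ℝ} {x : Mink} {f : 𝓢(Mink, ℂ)} (h : Nr ε x f) (b : Mink) :
    Nr ε (x + b) (tauS b f) := by
  obtain ⟨h1, ρ, h2, h3⟩ := h
  refine ⟨cp_tauS h1 b, ρ, h2, fun y hy => ?_⟩
  rw [tsupport_tauS] at hy
  have := h3 _ hy
  rwa [show y - (x + b) = y - b - x by abel]

lemma Nr.near {ε : ℝ} {x : Mink} {f : 𝓢(Mink, ℂ)} (h : Nr ε x f) : ∀ᶠ x' in 𝓝 x, Nr ε x' f := by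
  obtain ⟨h1, ρ, h2, h3⟩ := h
  filter_upwards [Metric.ball_mem_nhds x (sub_pos.2 h2)] with x' hx'
  refine ⟨h1, ρ + dist x' x, by rw [Metric.mem_ball] at hx'; linarith, fun y hy => ?_⟩
  have h4 := norm_add_le (y - x) (x - x')
  rw [sub_add_sub_cancel, ← dist_eq_norm x x', dist_comm x x'] at h4
  linarith [h3 y hy]

theorem moving {κ : Fu 𝓢(Mink, ℂ)} {ε : ℝ} {n : ℕ}
    (hκ : ∀ w₁ w₂ : List 𝓢(Mink, ℂ), w₁.length + w₂.length = n →
      Ana fun b => κ (w₁ ++ w₂.map (tauS b)))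
    (xs : List Mink) (n₂ : ℕ) (hn : xs.length + n₂ = n)
    (h : ∀ l₁ l₂, List.Forall₂ (Nr ε) xs l₁ → l₂.length = n₂ → (∀ f ∈ l₂, ∃ x, Nr ε x f) →
      κ (l₁ ++ l₂) = 0)
    (l : List 𝓢(Mink, ℂ)) (hl : l.length = n) (hx : ∀ f ∈ l, ∃ x, Nr ε x f) : κ l = 0 := by
  induction xs using List.reverseRecOn generalizing n₂ with
  | nil => exact h [] l .nil (by simpa [hl] using hn.symm) hx
  | append_singleton ys x ih =>
    simp only [List.length_append, List.length_cons, List.length_nil] at hn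
    refine ih (n₂ + 1) (by omega) ?_
    intro l₁ l₂ h1 h2 h3
    cases l₂ with
    | nil => simp at h2
    | cons f l₂ =>
      obtain ⟨x', hx'⟩ := h3 f List.mem_cons_self
      have h2' : l₂.length = n₂ := by simpa using h2
      have hA := hκ l₁ (f :: l₂) (by
        rw [← h1.length_eq, List.length_cons, h2']
        omega)
      have h4 : ∀ᶠ b in 𝓝 (x - x'), κ (l₁ ++ (f :: l₂).map (tauS b)) = 0 := by
        have hc : Tendsto (fun b : Mink => x - b) (𝓝 (x - x')) (𝓝 x') := by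
          have : Continuous fun b : Mink => x - b := by fun_prop
          have h5 := this.tendsto (x - x')
          rwa [sub_sub_cancel] at h5
        filter_upwards [hc.eventually hx'.near] with b hb
        have h6 := hb.tau b
        rw [sub_add_cancel] at h6
        have h7 := h (l₁ ++ [tauS b f]) (l₂.map (tauS b)) (List.rel_append h1 (.cons h6 .nil))
          (by simpa using h2') (by
            intro g hg
            obtain ⟨g', hg', rfl⟩ := List.mem_map.1 hg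
            obtain ⟨z, hz⟩ := h3 g' (List.mem_cons_of_mem _ hg')
            exact ⟨z + b, hz.tau b⟩)
        simpa using h7
      have h5 := hA.zero h4 0
      have e : (f :: l₂).map (tauS 0) = f :: l₂ := by
        conv_rhs => rw [← List.map_id (f :: l₂)]
        exact List.map_congr_left fun g _ => tauS_zero' g
      rwa [e] at h5

lemma tsupport_scaleS {s : ℝ} (hs : s ≠ 0) (f : 𝓢(Mink, ℂ)) :
    tsupport (scaleS s hs f) = (fun x => s • x) ⁻¹' tsupport f := by
  have h : (scaleS s hs f : Mink → ℂ) = f ∘ (Homeomorph.smulOfNeZero s hs) := by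
    ext x; simp
  rw [h, tsupport_comp_eq_preimage]
  rfl

lemma cp_scaleS {s : ℝ} (hs : s ≠ 0) {f : 𝓢(Mink, ℂ)} (hf : HasCompactSupport f) :
    HasCompactSupport (scaleS s hs f) := by
  have h : (scaleS s hs f : Mink → ℂ) = f ∘ (Homeomorph.smulOfNeZero s hs) := by
    ext x; simp
  rw [h]
  exact hf.comp_homeomorph _

lemma cpt_norm {l : List 𝓢(Mink, ℂ)} (h : Cpt l) :
    ∃ R : ℝ, 0 < R ∧ ∀ f ∈ l, ∀ x ∈ tsupport f, ‖x‖ ≤ R := by
  induction l with
  | nil => exact ⟨1, one_pos, fun f hf => by simp at hf⟩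
  | cons f l ih =>
    obtain ⟨R, hR0, hR⟩ := ih h.tail
    obtain ⟨r, hr⟩ := (h f List.mem_cons_self).isBounded.exists_norm_le
    refine ⟨max R r, lt_max_of_lt_left hR0, fun g hg x hx => ?_⟩
    rcases List.mem_cons.1 hg with rfl | hg
    · exact (hr x hx).trans (le_max_right _ _)
    · exact (hR g hg x hx).trans (le_max_left _ _)

lemma nr_scale {ε R : ℝ} (hε : 0 < ε) (hR : 0 < R) {f : 𝓢(Mink, ℂ)} (hf : HasCompactSupport f)
    (h : ∀ x ∈ tsupport f, ‖x‖ ≤ R) : Nr ε 0 (scaleS (2 * R / ε) (by positivity) f) := by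
  refine ⟨cp_scaleS _ hf, ε / 2, by linarith, fun y hy => ?_⟩
  rw [tsupport_scaleS] at hy
  have h1 := h _ hy
  rw [norm_smul, Real.norm_eq_abs, abs_of_pos (by positivity)] at h1
  rw [sub_zero]
  rw [div_mul_eq_mul_div, div_le_iff₀ hε] at h1
  nlinarith

theorem global {κ : Fu 𝓢(Mink, ℂ)} {ε : ℝ} (hε : 0 < ε) {n : ℕ}
    (hκ : ∀ w₁ w₂ : List 𝓢(Mink, ℂ), w₁.length + w₂.length = n →
      Ana fun b => κ (w₁ ++ w₂.map (tauS b)))
    (hs : ∀ s (hs : 0 < s), ∃ c : ℂ, c ≠ 0 ∧ ∀ w : List 𝓢(Mink, ℂ), w.length = n →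
      κ (w.map (scaleS s hs.ne')) = c * κ w)
    (xs : List Mink) (hn : xs.length = n)
    (h : ∀ l, List.Forall₂ (Nr ε) xs l → κ l = 0)
    (l : List 𝓢(Mink, ℂ)) (hl : l.length = n) (hc : Cpt l) : κ l = 0 := by
  obtain ⟨R, hR0, hR⟩ := cpt_norm hc
  have hs0 : 0 < 2 * R / ε := by positivity
  obtain ⟨c, hc0, hc'⟩ := hs _ hs0
  have h1 := moving hκ xs 0 (by omega) (fun l₁ l₂ h1 h2 _ => by
    rw [List.length_eq_zero_iff.1 h2, List.append_nil]
    exact h _ h1) (l.map (scaleS (2 * R / ε) hs0.ne')) (by simpa using hl) (by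
      intro g hg
      obtain ⟨f, hf, rfl⟩ := List.mem_map.1 hg
      exact ⟨0, nr_scale hε hR0 (hc f hf) (hR f hf)⟩)
  rw [hc' l hl] at h1
  exact (mul_eq_zero.1 h1).resolve_left hc0

end Vale.Agent.P352.H722
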