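import Vale.Agent.P352.H990.Defs

namespace Vale.Agent.P352.GF

noncomputable section

/-- `f` is a tuple of compactly supported test functions, and every tuple of points of their
supports belongs to `G`. -/
def Within {n : ℕ} (G : Set (Fin n → V)) (f : Fin n → Fn) : Prop :=
  (∀ i, IsTest (f i) ∧ HasCompactSupport (f i)) ∧
    ∀ x : Fin n → V, (∀ i, x i ∈ tsupport (f i)) → x ∈ G

namespace Theory

variable {D : Type*} [NormedAddCommGroup D] [InnerProductSpace ℂ D] (Q : Theory D)

/-- The truncated `n` point function of `A` vanishes on some nonempty open set `G` of `n`-tuples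
of points of Minkowski space. -/
def TruncZeroOn (A : Fld D) (n : ℕ) : Prop := ∃ t, Q.IsTrunc A t ∧
  ∃ G : Set (Fin n → V), IsOpen G ∧ G.Nonempty ∧ ∀ f, Within G f → t (List.ofFn f) = 0

/-- The identity of `Free4` on some nonempty open set of quadruples of points. -/
def Free4On (A : Fld D) : Prop :=
  ∃ G : Set (Fin 4 → V), IsOpen G ∧ G.Nonempty ∧ ∀ f : Fin 4 → Fn, Within G f →
    inner ℂ Q.vac (A (f 0) (A (f 1) (A (f 2) (A (f 3) Q.vac)))) =
      inner ℂ Q.vac (A (f 0) (A (f 1) Q.vac)) * inner ℂ Q.vac (A (f 2) (A (f 3) Q.vac)) +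
      inner ℂ Q.vac (A (f 0) (A (f 2) Q.vac)) * inner ℂ Q.vac (A (f 1) (A (f 3) Q.vac)) +
      inner ℂ Q.vac (A (f 0) (A (f 3) Q.vac)) * inner ℂ Q.vac (A (f 1) (A (f 2) Q.vac))

/-- All `m`-fold repeated commutators of `A` with test functions supported in some nonempty open
region `O` map the vacuum to a multiple of itself. -/
def NilpotentOn (A : Fld D) (m : ℕ) : Prop := ∃ O : Set V, IsOpen O ∧ O.Nonempty ∧
  ∀ l : List Fn, l.length = m → (∀ f ∈ l, IsTest f ∧ HasCompactSupport f ∧ tsupport f ⊆ O) →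
    ∃ c : ℂ, com A l Q.vac = c • Q.vac

/-- The local form of the conditions. -/
def TameOn (A : Fld D) : Prop := Q.Free4On A ∨ Q.NilpotentOn A 2 ∨
  Q.UniqueVac ∧ ∃ m, 1 ≤ m ∧ (Q.TruncZeroOn A (2 * m) ∨ Q.NilpotentOn A m)

end Theory

end

end Vale.Agent.P352.GF
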