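import Vale.Agent.P352.H722.Ana
import Vale.Agent.P352.H722.Defs

/-! The local conditions imply a vanishing truncated four point function. -/

set_option maxSynthPendingDepth 3

open MeasureTheory SchwartzMap Complex Filter Topology
open scoped SchwartzMap ComplexConjugate ENNReal LineDeriv

namespace Vale.Agent.P352.H722

open GF (Ix V Fn Sch ev pd bar sim one bas o Within)
open H990

/-- extraction of a box from an open set -/
lemma exists_box {n : ℕ} {G : Set (Fin n → V)} (hG : IsOpen G) (hne : G.Nonempty) :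
    ∃ ε : ℝ, 0 < ε ∧ ∃ xs : List Mink, xs.length = n ∧ ∀ l, List.Forall₂ (Nr ε) xs l →
      ∃ F : Fin n → Fn, Within G F ∧ List.ofFn F = l.map fl := by
  obtain ⟨x, hx⟩ := hne
  obtain ⟨ε, hε, hb⟩ := Metric.isOpen_iff.1 hG x hx
  refine ⟨ε, hε, List.ofFn fun i => WithLp.toLp 2 (x i), by simp, fun l hl => ?_⟩
  obtain ⟨hlen, hget⟩ := List.forall₂_iff_get.1 hl
  have hn : l.length = n := by simpa using hlen.symm
  subst hn
  have hget' : ∀ i : Fin l.length, Nr ε (WithLp.toLp 2 (x i)) (l.get i) := by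
    intro i
    have := hget i.1 (by simp) i.2
    simpa using this
  refine ⟨fun i => fl (l.get i), ⟨fun i => ⟨isTest_fl _, hasCompactSupport_fl (hget' i).1⟩, ?_⟩, ?_⟩
  · intro y hy
    apply hb
    rw [Metric.mem_ball, dist_pi_lt_iff hε]
    intro i
    obtain ⟨-, ρ, hρ, h⟩ := hget' i
    have h1 := hy i
    rw [tsupport_fl] at h1
    have h2 := h _ h1
    refine lt_of_le_of_lt ?_ hρ
    refine le_trans ?_ h2
    rw [dist_pi_le_iff (norm_nonneg _)]
    intro j
    have h3 := abs_coord_le (WithLp.toLp 2 (y i) - WithLp.toLp 2 (x i)) j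
    rw [Real.dist_eq]
    exact h3
  · have h1 : List.ofFn (fun i => fl (l.get i)) = (List.ofFn l.get).map fl := by
      rw [List.map_ofFn]
      rfl
    rw [h1, List.ofFn_get]

section

variable {X : Type*}

lemma ne_vanish_on {C : X → Prop} {n k : ℕ} (l : List X) (hlC : ∀ f ∈ l, C f) {τ : Fu X}
    (h : ∀ w : List X, (∀ f ∈ w, C f) → k + w.length = n → τ w = 0)
    (w : List X) (hwC : ∀ f ∈ w, C f) (hw : k + l.length + w.length = n) : ne l τ w = 0 := by
  induction l generalizing k τ w with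
  | nil => exact h w hwC (by simpa using hw)
  | cons f l ih =>
    have hf : C f := hlC f List.mem_cons_self
    have hl : ∀ g ∈ l, C g := fun g hg => hlC g (List.mem_cons_of_mem _ hg)
    have hfw : ∀ w : List X, (∀ g ∈ w, C g) → ∀ g ∈ f :: w, C g := by
      intro w hw g hg
      rcases List.mem_cons.1 hg with rfl | hg
      · exact hf
      · exact hw g hg
    cases l with
    | nil => exact h _ (hfw w hwC) (by simp only [List.length_cons, List.length_nil] at hw ⊢; omega)
    | cons g l =>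
      simp only [ne, Pi.sub_apply]
      rw [ih hl (k := k + 1) (τ := sh f τ) (fun w hwC hw => h _ (hfw w hwC) (by
          simp only [List.length_cons] at hw ⊢; omega)) w hwC (by
          simp only [List.length_cons] at hw ⊢; omega)]
      have := ih hl (k := k) h (f :: w) (hfw w hwC) (by simp only [List.length_cons] at hw ⊢; omega)
      change 0 - ne (g :: l) τ (f :: w) = 0
      rw [this, sub_zero]

end

variable {D : Type*} [NormedAddCommGroup D] [InnerProductSpace ℂ D] {Q : GF.Theory D}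
  {T : Ix → Ix → GF.Fld D} {A : GF.Fld D} {d : ℝ}

lemma trunc_exp {t : List Fn → ℂ} (ht : Q.IsTrunc A t) (f : 𝓢(Mink, ℂ)) :
    sh f (mel A Q.vac Q.vac) = cv (sh f fun w => t (w.map fl)) (mel A Q.vac Q.vac) := by
  funext w
  have h1 := ht (fl f) (w.map fl) (by
    intro g hg
    rcases List.mem_cons.1 hg with rfl | hg
    · exact isTest_fl f
    · obtain ⟨k, -, rfl⟩ := List.mem_map.1 hg
      exact isTest_fl k)
  rw [splits_conv fl w (fun u => t (fl f :: u)) (Q.vev A)] at h1
  have h3 : Q.vev A (fl f :: w.map fl) = mel A Q.vac Q.vac (f :: w) := by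
    rw [← List.map_cons, vev_map]
  rw [h3] at h1
  change mel A Q.vac Q.vac (f :: w) = conv w (sh f _) (mel A Q.vac Q.vac)
  rw [h1]
  congr 1
  funext u
  rw [vev_map]

lemma vac_vac (Q : GF.Theory D) : inner ℂ Q.vac Q.vac = (1 : ℂ) := by
  rw [inner_self_eq_norm_sq_to_K, Q.norm_vac]; simp

/-- vanishing on an open set of tuples of points implies vanishing -/
lemma trunc_global (hA : PField Q T A d) {n : ℕ} (hn : 0 < n) (h : Q.TruncZeroOn A n) :
    ∃ t, Q.IsTrunc A t ∧ ∀ l : List 𝓢(Mink, ℂ), l.length = n → Cpt l → t (l.map fl) = 0 := by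
  obtain ⟨t, ht, G, hG, hne, hz⟩ := h
  refine ⟨t, ht, ?_⟩
  obtain ⟨ε, hε, xs, hxs, hbox⟩ := exists_box hG hne
  set τ : Fu 𝓢(Mink, ℂ) := fun w => t (w.map fl) with hτ
  have hexp : ∀ f, sh f (mel A Q.vac Q.vac) = cv (sh f τ) (mel A Q.vac Q.vac) := trunc_exp ht
  have h1 : mel A Q.vac Q.vac [] = 1 := vac_vac Q
  have h0 : ∀ w : List 𝓢(Mink, ℂ), Ana fun b => τ (w.map (tauS b)) := by
    intro w
    cases w with
    | nil => exact Ana.const (τ [])
    | cons f w =>
      have e : (fun b => τ ((f :: w).map (tauS b))) = fun _ => τ (f :: w) := by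
        funext b
        have := tau_map hexp h1 (g := tauS b) (c := 1) (fun w => by
          rw [one_pow, one_mul]; exact mel_tau hA b w) w.length (f :: w) rfl
        rwa [one_pow, one_mul] at this
      rw [e]
      exact Ana.const _
  have hκ : ∀ w₁ w₂ : List 𝓢(Mink, ℂ), w₁.length + w₂.length = n →
      Ana fun b => τ (w₁ ++ w₂.map (tauS b)) := fun w₁ w₂ hw =>
    tau_fam Ana.add Ana.mul Ana.const tauS hexp h1 (ana_mel hA) h0 n w₁ w₂ hw
  have hs : ∀ s (hs : 0 < s), ∃ c : ℂ, c ≠ 0 ∧ ∀ w : List 𝓢(Mink, ℂ), w.length = n →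
      τ (w.map (scaleS s hs.ne')) = c * τ w := by
    intro s hs
    have hc : ((s ^ (4 - d) : ℝ) : ℂ) ≠ 0 := ofReal_ne_zero.2 (Real.rpow_pos_of_pos hs _).ne'
    refine ⟨(((s ^ (4 - d) : ℝ) : ℂ)⁻¹) ^ n, pow_ne_zero _ (inv_ne_zero hc), fun w hw => ?_⟩
    obtain ⟨k, rfl⟩ : ∃ k, n = k + 1 := ⟨n - 1, by omega⟩
    exact tau_map hexp h1 (mel_scale hA hs) k w hw
  refine global hε hκ hs xs hxs fun l hl => ?_
  obtain ⟨F, hF, hF'⟩ := hbox l hl
  have := hz F hF
  rwa [hF'] at this

lemma sc_of_order_cpt (hA : PField Q T A d) {m : ℕ} {t : List Fn → ℂ} (ht : Q.IsTrunc A t)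
    (hz : ∀ l : List 𝓢(Mink, ℂ), l.length = 2 * m → Cpt l → t (l.map fl) = 0) (hm : 1 ≤ m) :
    Sc hA m := by
  set τ : Fu 𝓢(Mink, ℂ) := fun w => t (w.map fl) with hτ
  set ω : Fu 𝓢(Mink, ℂ) := mel A Q.vac Q.vac with hω
  have hvv := vac_vac Q
  have hexp : ∀ f, sh f ω = cv (sh f τ) ω := trunc_exp ht
  have h1 : ω [] = 1 := hvv
  refine sc_of_vac hA hm fun l hl hc => ?_
  have hl' : l ≠ [] := ne_nil_of_length hm hl
  have hcl : cl l ≠ [] := by simpa using hl'
  refine ⟨inner ℂ Q.vac (nc hA l Q.vac), ?_⟩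
  have key := ne_pair hexp (cl l) l hcl hl' h1
  have hv : ne l (ne (cl l) τ) [] = 0 := by
    refine ne_vanish_on (C := fun f : 𝓢(Mink, ℂ) => HasCompactSupport f) (n := 2 * m)
      (k := (cl l).length) l hc (fun w hwC hw => ?_) [] (fun f hf => by simp at hf) ?_
    · refine ne_vanish_on (C := fun f : 𝓢(Mink, ℂ) => HasCompactSupport f) (n := 2 * m) (k := 0)
        (cl l) hc.cl (fun w hwC hw => ?_) w hwC (by omega)
      exact hz _ (by simpa using hw) hwC
    · simp only [cl, List.length_map, List.length_nil]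
      omega
  have e1 : ne (cl l) ω = mel A (sg (cl l) • nc hA l Q.vac) Q.vac := by
    funext w
    rw [hω, ne_mel hA _ hcl]
    simp only [mel]
    rw [inner_smul_left, conj_sg, inner_nc hA l hl', ← mul_assoc]
    have : sg (cl l) = sg l := by simp [sg]
    rw [this, sg_mul, one_mul]
  rw [hv, zero_add, e1, ne_mel hA l hl'] at key
  simp only [mel, hω, ne_mel hA l hl', List.foldr_nil, inner_smul_left, conj_sg] at key
  have hs : sg (cl l) = sg l := by simp [sg]
  set v := nc hA l Q.vac with hvdef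
  rw [hs] at key
  have key' : inner ℂ v v = inner ℂ v Q.vac * inner ℂ Q.vac v := by
    have h5 := congrArg (fun z => sg l * z) key
    simp only [← mul_assoc, sg_mul, one_mul] at h5
    exact h5
  rw [← sub_eq_zero]
  apply inner_self_eq_zero (𝕜 := ℂ).1
  rw [inner_sub_left, inner_sub_right, inner_sub_right, inner_smul_left, inner_smul_right,
    inner_smul_left, inner_smul_right, hvv, key']
  have h7 : conj (inner ℂ Q.vac v) = inner ℂ v Q.vac := inner_conj_symm _ _
  rw [h7]
  ring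

/-! commutators -/

lemma U_sub' {s : ℝ} (hs : 0 < s) (a : V) (v w : D) :
    Q.U s one a (v - w) = Q.U s one a v - Q.U s one a w := by
  have h := U_add (Q := Q) hs isLor_one a v ((-1 : ℂ) • w)
  rw [U_smul hs isLor_one, neg_one_smul, neg_one_smul, ← sub_eq_add_neg, ← sub_eq_add_neg] at h
  exact h

lemma nc_scale (hA : PField Q T A d) {s : ℝ} (hs : 0 < s) (l : List 𝓢(Mink, ℂ)) (v : D) :
    nc hA l (Q.U s one 0 v) = (((s ^ (4 - d) : ℝ) : ℂ) ^ l.length) •
      Q.U s one 0 (nc hA (l.map (scaleS s hs.ne')) v) := by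
  have hcov : ∀ (f : 𝓢(Mink, ℂ)) v, A (fl f) (Q.U s one 0 v) = ((s ^ (4 - d) : ℝ) : ℂ) •
      Q.U s one 0 (A (fl (scaleS s hs.ne' f)) v) := by
    intro f v
    rw [hA.cov s hs one isLor_one 0 f, simS_scale hs f]
  induction l generalizing v with
  | nil => simp [nc]
  | cons f l ih =>
    cases l with
    | nil =>
      simp only [List.length_cons, List.length_nil, zero_add, pow_one]
      exact hcov f v
    | cons g l =>
      have e : (f :: g :: l).map (scaleS s hs.ne') =
        scaleS s hs.ne' f :: (g :: l).map (scaleS s hs.ne') := rfl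
      have hne : (g :: l).map (scaleS s hs.ne') ≠ [] := by simp
      rw [nc_cons hA f (List.cons_ne_nil g l), e, nc_cons hA _ hne, ih, hA.smulv, hcov, hcov,
        map_smul, ih, smul_smul, smul_smul, U_sub' hs, smul_sub]
      have e2 : (f :: g :: l).length = (g :: l).length + 1 := rfl
      rw [e2, pow_succ]
      congr 2
      ring

lemma sc_of_nilpotentOn (hA : PField Q T A d) {m : ℕ} (hm : 1 ≤ m) (h : Q.NilpotentOn A m) :
    Sc hA m := by
  obtain ⟨O, hO, ⟨x, hx⟩, hz⟩ := h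
  refine sc_of_vac hA hm fun l hl hc => ?_
  obtain ⟨ε, hε, hb⟩ := Metric.isOpen_iff.1 hO x hx
  obtain ⟨R, hR0, hR⟩ := cpt_norm hc
  have hs0 : 0 < 2 * R / ε := by positivity
  set s : ℝ := 2 * R / ε with hs
  set x' : Mink := WithLp.toLp 2 x with hx'
  have h1 := hz (((l.map (scaleS s hs0.ne')).map (tauS x')).map fl) (by simpa using hl) (by
    intro f' hf'
    obtain ⟨g, hg, rfl⟩ := List.mem_map.1 hf'
    obtain ⟨g', hg', rfl⟩ := List.mem_map.1 hg
    obtain ⟨f, hf, rfl⟩ := List.mem_map.1 hg'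
    have h2 := (nr_scale hε hR0 (hc f hf) (hR f hf)).tau x'
    rw [zero_add] at h2
    obtain ⟨k1, ρ, k2, k3⟩ := h2
    refine ⟨isTest_fl _, hasCompactSupport_fl k1, fun y hy => hb ?_⟩
    rw [tsupport_fl] at hy
    have k4 := k3 _ hy
    rw [Metric.mem_ball]
    refine lt_of_le_of_lt ?_ k2
    refine le_trans ?_ k4
    rw [dist_pi_le_iff (norm_nonneg _)]
    intro j
    have h3 := abs_coord_le (WithLp.toLp 2 y - x') j
    rw [Real.dist_eq]
    exact h3)
  obtain ⟨c, h2⟩ := h1
  rw [com_map hA] at h2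
  have h3 := U_nc hA (-x') ((l.map (scaleS s hs0.ne')).map (tauS x')) Q.vac
  rw [h2, U_smul one_pos isLor_one, U_vac1] at h3
  have e : ((l.map (scaleS s hs0.ne')).map (tauS x')).map (tauS (-x')) =
      l.map (scaleS s hs0.ne') := by
    rw [List.map_map]
    conv_rhs => rw [← List.map_id (l.map (scaleS s hs0.ne'))]
    refine List.map_congr_left fun g _ => ?_
    simp only [Function.comp_apply, tauS_tauS, add_neg_cancel, tauS_zero', id]
  rw [e] at h3
  have h4 := nc_scale hA hs0 l Q.vac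
  rw [Q.U_vac s one 0 hs0 isLor_one, ← h3, U_smul hs0 isLor_one, Q.U_vac s one 0 hs0 isLor_one,
    smul_smul] at h4
  exact ⟨_, h4⟩

/-! the four point function -/

/-- the truncated four point function -/
noncomputable def k4 (ω : Fu 𝓢(Mink, ℂ)) : Fu 𝓢(Mink, ℂ)
  | [f, g, h, k] => ω [f, g, h, k] + (-1) * (ω [f, g] * ω [h, k] + ω [f, h] * ω [g, k] +
      ω [f, k] * ω [g, h])
  | _ => 0

lemma length_four {X : Type*} {w : List X} (h : w.length = 4) :
    ∃ f g k l, w = [f, g, k, l] := by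
  rcases w with _ | ⟨f, _ | ⟨g, _ | ⟨k, _ | ⟨l, _ | ⟨m, w⟩⟩⟩⟩⟩ <;> simp at h
  exact ⟨f, g, k, l, rfl⟩

lemma ana_k4 {ω : Fu 𝓢(Mink, ℂ)}
    (hω : ∀ w₁ w₂ : List 𝓢(Mink, ℂ), Ana fun b => ω (w₁ ++ w₂.map (tauS b)))
    (w₁ w₂ : List 𝓢(Mink, ℂ)) (hw : w₁.length + w₂.length = 4) :
    Ana fun b => k4 ω (w₁ ++ w₂.map (tauS b)) := by
  rcases w₁ with _ | ⟨f, _ | ⟨g, _ | ⟨h, _ | ⟨k, _ | ⟨m, w₁⟩⟩⟩⟩⟩
  · obtain ⟨f, g, h, k, rfl⟩ := length_four (w := w₂) (by simpa using hw)
    exact Ana.add _ _ (hω [] [f, g, h, k]) (Ana.mul _ _ (Ana.const (-1)) (Ana.add _ _ (Ana.add _ _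
      (Ana.mul _ _ (hω [] [f, g]) (hω [] [h, k])) (Ana.mul _ _ (hω [] [f, h]) (hω [] [g, k])))
      (Ana.mul _ _ (hω [] [f, k]) (hω [] [g, h]))))
  · rcases w₂ with _ | ⟨g, _ | ⟨h, _ | ⟨k, _ | ⟨m, w₂⟩⟩⟩⟩ <;> simp at hw <;> try omega
    exact Ana.add _ _ (hω [f] [g, h, k]) (Ana.mul _ _ (Ana.const (-1)) (Ana.add _ _ (Ana.add _ _
      (Ana.mul _ _ (hω [f] [g]) (hω [] [h, k])) (Ana.mul _ _ (hω [f] [h]) (hω [] [g, k])))
      (Ana.mul _ _ (hω [f] [k]) (hω [] [g, h]))))
  · rcases w₂ with _ | ⟨h, _ | ⟨k, _ | ⟨m, w₂⟩⟩⟩ <;> simp at hw <;> try omega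
    exact Ana.add _ _ (hω [f, g] [h, k]) (Ana.mul _ _ (Ana.const (-1)) (Ana.add _ _ (Ana.add _ _
      (Ana.mul _ _ (hω [f, g] []) (hω [] [h, k])) (Ana.mul _ _ (hω [f] [h]) (hω [g] [k])))
      (Ana.mul _ _ (hω [f] [k]) (hω [g] [h]))))
  · rcases w₂ with _ | ⟨k, _ | ⟨m, w₂⟩⟩ <;> simp at hw <;> try omega
    exact Ana.add _ _ (hω [f, g, h] [k]) (Ana.mul _ _ (Ana.const (-1)) (Ana.add _ _ (Ana.add _ _
      (Ana.mul _ _ (hω [f, g] []) (hω [h] [k])) (Ana.mul _ _ (hω [f, h] []) (hω [g] [k])))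
      (Ana.mul _ _ (hω [f] [k]) (hω [g, h] []))))
  · rcases w₂ with _ | ⟨m, w₂⟩
    · exact Ana.const _
    · simp at hw
  · simp at hw
    omega

lemma dens4 (hA : PField Q T A d) (hall : ∀ f g h k : 𝓢(Mink, ℂ), HasCompactSupport f →
      HasCompactSupport g → HasCompactSupport h → HasCompactSupport k →
      w4 Q A f g h k - (w2 Q A f g * w2 Q A h k + w2 Q A f h * w2 Q A g k +
        w2 Q A f k * w2 Q A g h) = 0) : Q.Free4 A := by
  have l2 : ∀ k, Continuous fun g => w2 Q A g k := fun k => cont_w hA Q.vac (A (fl k) Q.vac)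
  have r2 : ∀ f, Continuous fun h => w2 Q A f h := fun f => by
    have := cont_w hA (A (fl (conjS f)) Q.vac) Q.vac
    simp only [herm' hA] at this
    exact this
  have key : ∀ f g h k : 𝓢(Mink, ℂ), w4 Q A f g h k - (w2 Q A f g * w2 Q A h k +
      w2 Q A f h * w2 Q A g k + w2 Q A f k * w2 Q A g h) = 0 := by
    intro f g h k
    refine H990.dens (P := fun k => w4 Q A f g h k - (w2 Q A f g * w2 Q A h k +
      w2 Q A f h * w2 Q A g k + w2 Q A f k * w2 Q A g h)) ?_ (fun k hk => ?_) k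
    · have c1 : Continuous fun k => w4 Q A f g h k := by
        have := cont_w hA (A (fl (conjS h)) (A (fl (conjS g)) (A (fl (conjS f)) Q.vac))) Q.vac
        simp only [herm' hA] at this
        exact this
      exact c1.sub (((continuous_const.mul (r2 h)).add (continuous_const.mul (r2 g))).add
        ((r2 f).mul continuous_const))
    refine H990.dens (P := fun h => w4 Q A f g h k - (w2 Q A f g * w2 Q A h k +
      w2 Q A f h * w2 Q A g k + w2 Q A f k * w2 Q A g h)) ?_ (fun h hh => ?_) h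
    · have c1 : Continuous fun h => w4 Q A f g h k := by
        have := cont_w hA (A (fl (conjS g)) (A (fl (conjS f)) Q.vac)) (A (fl k) Q.vac)
        simp only [herm' hA] at this
        exact this
      exact c1.sub (((continuous_const.mul (l2 k)).add ((r2 f).mul continuous_const)).add
        (continuous_const.mul (r2 g)))
    refine H990.dens (P := fun g => w4 Q A f g h k - (w2 Q A f g * w2 Q A h k +
      w2 Q A f h * w2 Q A g k + w2 Q A f k * w2 Q A g h)) ?_ (fun g hg => ?_) g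
    · have c1 : Continuous fun g => w4 Q A f g h k := by
        have := cont_w hA (A (fl (conjS f)) Q.vac) (A (fl h) (A (fl k) Q.vac))
        simp only [herm' hA] at this
        exact this
      exact c1.sub ((((r2 f).mul continuous_const).add (continuous_const.mul (l2 k))).add
        (continuous_const.mul (l2 h)))
    refine H990.dens (P := fun f => w4 Q A f g h k - (w2 Q A f g * w2 Q A h k +
      w2 Q A f h * w2 Q A g k + w2 Q A f k * w2 Q A g h)) ?_ (fun f hf => ?_) f
    · have c1 : Continuous fun f => w4 Q A f g h k :=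
        cont_w hA Q.vac (A (fl g) (A (fl h) (A (fl k) Q.vac)))
      exact c1.sub ((((l2 g).mul continuous_const).add ((l2 h).mul continuous_const)).add
        ((l2 k).mul continuous_const))
    exact hall f g h k hf hg hh hk
  intro f g h k hf hg hh hk
  obtain ⟨f, rfl⟩ := exists_fl hf
  obtain ⟨g, rfl⟩ := exists_fl hg
  obtain ⟨h, rfl⟩ := exists_fl hh
  obtain ⟨k, rfl⟩ := exists_fl hk
  exact sub_eq_zero.1 (key f g h k)

lemma free4_of_free4On (hA : PField Q T A d) (h : Q.Free4On A) : Q.Free4 A := by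
  obtain ⟨G, hG, hne, hz⟩ := h
  obtain ⟨ε, hε, xs, hxs, hbox⟩ := exists_box hG hne
  set ω : Fu 𝓢(Mink, ℂ) := mel A Q.vac Q.vac with hω
  have hs : ∀ s (hs : 0 < s), ∃ c : ℂ, c ≠ 0 ∧ ∀ w : List 𝓢(Mink, ℂ), w.length = 4 →
      k4 ω (w.map (scaleS s hs.ne')) = c * k4 ω w := by
    intro s hs
    have hc : ((s ^ (4 - d) : ℝ) : ℂ) ≠ 0 := ofReal_ne_zero.2 (Real.rpow_pos_of_pos hs _).ne'
    refine ⟨(((s ^ (4 - d) : ℝ) : ℂ)⁻¹) ^ 4, pow_ne_zero _ (inv_ne_zero hc), fun w hw => ?_⟩
    obtain ⟨f, g, h, k, rfl⟩ := length_four hw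
    have m4 := mel_scale hA hs [f, g, h, k]
    have m2 := fun f g => mel_scale hA hs [f, g]
    simp only [List.map_cons, List.map_nil, List.length_cons, List.length_nil, zero_add,
      Nat.reduceAdd] at m4 m2 ⊢
    simp only [k4, hω, m4, m2]
    ring
  have hglob := global (κ := k4 ω) hε (ana_k4 (ana_mel hA)) hs xs hxs (fun l hl => by
    have hlen : l.length = 4 := by rw [← hl.length_eq, hxs]
    obtain ⟨f, g, h, k, rfl⟩ := length_four hlen
    obtain ⟨F, hF, hF'⟩ := hbox _ hl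
    have h1 := hz F hF
    obtain ⟨f0, f1, f2, f3⟩ : F 0 = fl f ∧ F 1 = fl g ∧ F 2 = fl h ∧ F 3 = fl k := by
      simpa using hF'
    rw [f0, f1, f2, f3] at h1
    simp only [k4, hω, mel, List.foldr_cons, List.foldr_nil]
    rw [h1]
    ring)
  refine dens4 hA fun f g h k hf hg hh hk => ?_
  have h1 := hglob [f, g, h, k] rfl (by
    intro e he
    simp only [List.mem_cons, List.not_mem_nil, or_false] at he
    rcases he with rfl | rfl | rfl | rfl <;> assumption)
  simp only [k4, hω, mel, List.foldr_cons, List.foldr_nil] at h1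
  simp only [w4, w2]
  linear_combination h1

/-- Main result of this file. -/
theorem free4_of_tameOn (hA : PField Q T A d) (hd : 0 < d) (h : Q.TameOn A) : Q.Free4 A := by
  rcases h with h | h | ⟨hu, m, hm, h | h⟩
  · exact free4_of_free4On hA h
  · exact free4_of_sc hA hd (sc_of_nilpotentOn hA (by norm_num) h)
  · obtain ⟨t, ht, hz⟩ := trunc_global hA (by omega) h
    exact free4_of_sc hA hd (sc_of_unique hA hu hm (sc_of_order_cpt hA ht hz hm))
  · exact free4_of_sc hA hd (sc_of_unique hA hu hm (sc_of_nilpotentOn hA hm h))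

end Vale.Agent.P352.H722
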